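import Mathlib
import Vale.Agent.Lib.P110.Basic

/-!
P110 (ultraflat Littlewood polynomials): a quantitative obstruction to flatness valid for every
real Littlewood polynomial of every length `N`.
-/

namespace Vale.Agent.Results.P110.FourthMomentGap

open Finset

theorem result (N : ℕ) (ε : Fin N → ℝ) (hε : ∀ k, ε k = 1 ∨ ε k = -1) :
    (∀ m M : ℝ,
      (∀ z : ℂ, ‖z‖ = 1 →
        m ≤ ‖∑ k : Fin N, (ε k : ℂ) * z ^ (k : ℕ)‖ ^ 2 ∧
        ‖∑ k : Fin N, (ε k : ℂ) * z ^ (k : ℕ)‖ ^ 2 ≤ M) →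
      (N : ℝ) - 1 ≤ (M - N) * (N - m)) ∧
    (∀ c : ℝ, 0 ≤ c →
      (∀ z : ℂ, ‖z‖ = 1 →
        (1 - c) * √(N : ℝ) ≤ ‖∑ k : Fin N, (ε k : ℂ) * z ^ (k : ℕ)‖ ∧
        ‖∑ k : Fin N, (ε k : ℂ) * z ^ (k : ℕ)‖ ≤ (1 + c) * √(N : ℝ)) →
      √((N : ℝ) - 1) ≤ 2 * N * c) := by
  -- first part
  have part1 : ∀ m M : ℝ,
      (∀ z : ℂ, ‖z‖ = 1 →
        m ≤ ‖∑ k : Fin N, (ε k : ℂ) * z ^ (k : ℕ)‖ ^ 2 ∧
        ‖∑ k : Fin N, (ε k : ℂ) * z ^ (k : ℕ)‖ ^ 2 ≤ M) →
      (N : ℝ) - 1 ≤ (M - N) * (N - m) := by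
    intro m M h
    rcases Nat.eq_zero_or_pos N with hN | hN
    · subst hN
      have h1 := h 1 (by simp)
      simp only [Finset.univ_eq_empty, Finset.sum_empty, norm_zero] at h1
      have hm : m ≤ 0 := by simpa using h1.1
      have hM : 0 ≤ M := by simpa using h1.2
      have : 0 ≤ M * (-m) := mul_nonneg hM (by linarith)
      simp only [Nat.cast_zero, zero_sub, sub_zero]
      linarith
    · -- integer coefficient sequence
      set e : ℕ → ℤ := fun k => if hk : k < N then (if ε ⟨k, hk⟩ = 1 then 1 else -1) else 0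
        with he_def
      have he : ∀ k < N, e k = 1 ∨ e k = -1 := by
        intro k hk
        simp only [he_def, dif_pos hk]
        split_ifs
        · exact Or.inl rfl
        · exact Or.inr rfl
      have hcast : ∀ k : Fin N, (ε k : ℂ) = ((e (k : ℕ) : ℤ) : ℂ) := by
        intro k
        simp only [he_def, dif_pos k.2]
        rcases hε k with h1 | h1
        · simp [h1]
        · have hne : ε k ≠ 1 := by rw [h1]; norm_num
          simp [h1]
          norm_num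
      have hsum : ∀ z : ℂ, ∑ k : Fin N, (ε k : ℂ) * z ^ (k : ℕ)
          = ∑ k ∈ range N, ((e k : ℤ) : ℂ) * z ^ k := by
        intro z
        rw [← Fin.sum_univ_eq_sum_range (fun k => ((e k : ℤ) : ℂ) * z ^ k) N]
        exact Finset.sum_congr rfl (fun k _ => by rw [hcast k])
      apply Vale.Agent.Lib.P110.core N hN e he m M
      intro z hz
      rw [← hsum z]
      exact h z hz
  refine ⟨part1, ?_⟩
  intro c hc h
  have hNnn : (0 : ℝ) ≤ N := Nat.cast_nonneg N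
  have hrhs : 0 ≤ 2 * (N : ℝ) * c := by positivity
  rw [Real.sqrt_le_iff]
  refine ⟨hrhs, ?_⟩
  rcases le_or_gt 1 c with hc1 | hc1
  · -- trivial range
    have h1 : (N : ℝ) - 1 ≤ (N : ℝ) ^ 2 := by nlinarith [sq_nonneg ((N : ℝ) - 1)]
    have h2 : (N : ℝ) ^ 2 ≤ (2 * N * c) ^ 2 := by
      have : (N : ℝ) ≤ 2 * N * c := by nlinarith
      exact pow_le_pow_left₀ hNnn this 2
    linarith
  · have hs : √(N : ℝ) ^ 2 = N := Real.sq_sqrt hNnn
    have hs0 : 0 ≤ √(N : ℝ) := Real.sqrt_nonneg _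
    have key := part1 (((1 - c) * √(N : ℝ)) ^ 2) (((1 + c) * √(N : ℝ)) ^ 2) (by
      intro z hz
      obtain ⟨h1, h2⟩ := h z hz
      have hlow : 0 ≤ (1 - c) * √(N : ℝ) := mul_nonneg (by linarith) hs0
      exact ⟨pow_le_pow_left₀ hlow h1 2, pow_le_pow_left₀ (norm_nonneg _) h2 2⟩)
    have e1 : ((1 + c) * √(N : ℝ)) ^ 2 = (1 + c) ^ 2 * N := by rw [mul_pow, hs]
    have e2 : ((1 - c) * √(N : ℝ)) ^ 2 = (1 - c) ^ 2 * N := by rw [mul_pow, hs]
    rw [e1, e2] at key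
    have e3 : ((1 + c) ^ 2 * (N : ℝ) - N) * (N - (1 - c) ^ 2 * N)
        = (N : ℝ) ^ 2 * c ^ 2 * (4 - c ^ 2) := by ring
    rw [e3] at key
    have h4 : (N : ℝ) ^ 2 * c ^ 2 * (4 - c ^ 2) ≤ (2 * N * c) ^ 2 := by
      have : 0 ≤ (N : ℝ) ^ 2 * c ^ 2 * c ^ 2 := by positivity
      nlinarith
    linarith

end Vale.Agent.Results.P110.FourthMomentGap
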